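import Vale.Agent.P014T.Pl.Lwx
import Vale.Agent.P014T.Tp.Stat

/-! # P014T: rationality of the central value -/

set_option autoImplicit false
set_option linter.all false

open Complex
open scoped ComplexConjugate

noncomputable section

namespace Vale.Agent.P014T.Rt

open Top Rk P004N P004Z
open P004M.TE (al)
open Lc (Wq)

/-- bounded denominators of the real parts of the modular symbols -/
def HD : Prop := ∀ (A B : ℤ) N G a, El A B → Nf A B N G a → ∃ D : ℕ, D ≠ 0 ∧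
  ∀ r : ℚ, ∃ k : ℤ, D * (Lw a fun n => ee (n * r)).re = k * w0 A B

variable {A B : ℤ} {N : ℕ} {G : UpperHalfPlane → ℂ} {a : ℕ → ℤ}

/-- the coefficients of the curve and of the form agree away from a finite set -/
theorem ex_S (h : El A B) (f : Nf A B N G a) : ∃ S₀, Pm S₀ ∧ (∀ p : ℕ, p.Prime → p ∣ N → p ∈ S₀) ∧
    Bd (sI A B) S₀ ∧ ∀ S, S₀ ⊆ S → ∀ n : ℕ, n.Coprime (∏ p ∈ S, p) → al A B n = a n := by
  have := Sa.ell_sI h
  obtain ⟨S, a1, a2, s0, a3⟩ := Lk.at_fin (Sa.md A B) f.rn f.fin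
  have m {p : ℕ} (hp : p.Prime) (d : p ∣ S) : p ∈ S.primeFactors := Nat.mem_primeFactors.2 ⟨hp, d, s0⟩
  have pm : Pm S.primeFactors := fun p k => Nat.prime_of_mem_primeFactors k
  refine ⟨S.primeFactors, pm, fun p hp d => m hp (d.trans a1), ⟨pm, fun p hp d => m hp ?_⟩,
    fun T hT n c => ?_⟩
  · refine Dvd.dvd.trans ?_ a2
    rw [Sa.disc] at d
    rw [Lk.bd, ← Int.natCast_dvd]
    have q := Nat.prime_iff_prime_int.1 hp
    rw [show (2 : ℤ) * (-16 * (4 * A ^ 3 + 27 * B ^ 2)) = -2 ^ 5 * (4 * A ^ 3 + 27 * B ^ 2) by ring] at d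
    rcases q.dvd_or_dvd d with e | e
    · exact (q.dvd_of_dvd_pow (dvd_neg.1 e)).mul_right _
    · exact e.mul_left _
  · rw [← Lk.lf_md (Sa.md A B)]
    refine a3 n (Nat.Coprime.symm (Nat.coprime_of_dvd fun p hp d e => ?_))
    exact hp.one_lt.ne' (Nat.eq_one_of_dvd_coprimes c e (Finset.dvd_prod_of_mem _ (hT (m hp d))))

theorem lw_al {S : Finset ℕ} (e : ∀ n : ℕ, n.Coprime (∏ p ∈ S, p) → al A B n = a n) (f : ℕ → ℂ) :
    Lw (al A B) (cS S f) = Lw a (An.cp (∏ p ∈ S, p) f) := by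
  rw [Lw_eq, Lw_eq]
  refine congrArg An.M0 (funext fun n => ?_)
  by_cases c : n.Coprime (∏ p ∈ S, p)
  · simp only [cS, An.cp, if_pos c, e n c]
  · simp only [cS, An.cp, if_neg c, zero_mul]

/-- real weights give real values -/
theorem lw_re (a : ℕ → ℤ) {w : ℕ → ℂ} (e : ∀ n, conj (w n) = w n) : ((Lw a w).re : ℂ) = Lw a w :=
  conj_eq_iff_re.1 (by rw [← Lw_conj, funext e])

theorem dep1 (h : RN N G a) {S : Finset ℕ} (hS : Pm S) :
    Lw a (An.cp (∏ p ∈ S, p) 1) = Pl.ES N a S * Lw a 1 := by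
  rw [Lw_eq, Lw_eq, cp_mul]
  exact (Pl.Lw.dep (w := 1) h (An.pw_const 1) hS fun _ _ _ => rfl).2.1

theorem rat_one (H : HD) (h : El A B) (f : Nf A B N G a) : ∃ ρ : ℚ, Lw a 1 = ρ * w0 A B := by
  obtain ⟨D, D0, k⟩ := H A B N G a h f
  obtain ⟨k, e⟩ := k 0
  have z : (fun n : ℕ => ee (n * (0 : ℚ))) = 1 := funext fun n => by simp [ee]
  have e' := congrArg (fun x : ℝ => (x : ℂ)) e
  have : (D : ℂ) ≠ 0 := Nat.cast_ne_zero.2 D0
  rw [z] at e'
  push_cast at e'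
  rw [lw_re a fun n => by simp] at e'
  exact ⟨k / D, by push_cast; field_simp; linear_combination e'⟩

/-- **the depleted central value is a rational multiple of the period** -/
theorem rat_nf (H : HD) (h : El A B) (f : Nf A B N G a) {S : Finset ℕ} (hS : Pm S)
    (e : ∀ n : ℕ, n.Coprime (∏ p ∈ S, p) → al A B n = a n) :
    ∃ ρ : ℚ, Lw (al A B) (cS S 1) = ρ * w0 A B := by
  obtain ⟨ρ, k⟩ := rat_one H h f
  exact ⟨Pl.ES N a S * ρ, by rw [lw_al e, dep1 f.rn hS, k]; push_cast; ring⟩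

theorem rat0 (M : MODN) (H : HD) (h : El A B) : ∃ S₀, Pm S₀ ∧ ∀ S, S₀ ⊆ S → Pm S →
    ∃ ρ : ℚ, Lw (al A B) (cS S 1) = ρ * w0 A B :=
  let ⟨_, _, _, f⟩ := M A B h
  let ⟨S₀, p, _, _, e⟩ := ex_S h f
  ⟨S₀, p, fun S k q => rat_nf H h f q (e S k)⟩

end Vale.Agent.P014T.Rt
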